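import Vale.Agent.P022.H472.Lit
import Vale.Agent.P022.H220.Exp

/-!
# P022-X, row [TR]: Serre's trace
-/

open scoped ModularForm MatrixGroups Manifold
open UpperHalfPlane Matrix CongruenceSubgroup
open Vale.Agent.P022.H220

noncomputable section

namespace Vale.Agent.P022.H645

/-- `2 ^ m O`, `m : ℤ` -/
def two (O : Subring ℂ) (m : ℤ) : AddSubgroup ℂ where
  carrier := {x | ∃ y ∈ O, x = 2 ^ m * y}
  add_mem' := by
    rintro _ _ ⟨y, hy, rfl⟩ ⟨z, hz, rfl⟩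
    exact ⟨y + z, O.add_mem hy hz, by ring⟩
  zero_mem' := ⟨0, O.zero_mem, by simp⟩
  neg_mem' := by
    rintro _ ⟨y, hy, rfl⟩
    exact ⟨-y, O.neg_mem hy, by ring⟩

theorem mem_two {O : Subring ℂ} {m : ℤ} {x : ℂ} : x ∈ two O m ↔ ∃ y ∈ O, x = 2 ^ m * y :=
  Iff.rfl

theorem two_mul_mem {O : Subring ℂ} {m n : ℤ} : ∀ a ∈ two O m, ∀ b ∈ two O n,
    a * b ∈ two O (m + n) := by
  rintro _ ⟨y, hy, rfl⟩ _ ⟨z, hz, rfl⟩
  refine ⟨y * z, O.mul_mem hy hz, ?_⟩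
  rw [zpow_add₀ two_ne_zero]
  ring

theorem two_anti (O : Subring ℂ) {m n : ℤ} (h : m ≤ n) : two O n ≤ two O m := by
  rintro _ ⟨y, hy, rfl⟩
  obtain ⟨j, rfl⟩ := Int.le.dest h
  refine ⟨2 ^ j * y, O.mul_mem (O.pow_mem (ofNat_mem O 2) j) hy, ?_⟩
  rw [zpow_add₀ two_ne_zero, zpow_natCast]
  ring

theorem two_zero (O : Subring ℂ) : two O 0 = O.toAddSubgroup := by
  ext x
  constructor
  · rintro ⟨y, hy, rfl⟩
    simpa using hy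
  · intro hx
    exact ⟨x, hx, by simp⟩

/-- functions with an expansion are bounded at `i∞` -/
theorem Ex_bdd {A : AddSubgroup ℂ} {R : ℕ} {f : ℍ → ℂ} (hf : Ex A R f) :
    IsBoundedAtImInfty f := by
  obtain ⟨a, -, ha'⟩ := hf
  have norm_eR : ∀ (n : ℕ) (τ : ℍ), ‖Complex.exp (2 * Real.pi * Complex.I * n * (τ : ℂ) / R)‖ =
      Real.exp (-(2 * Real.pi * n * τ.im / R)) := by
    intro n τ
    rw [Complex.norm_exp]
    congr 1
    have : (2 * (Real.pi : ℂ) * Complex.I * n * τ / R) =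
        ((2 * Real.pi * n / R : ℝ) : ℂ) * (Complex.I * τ) := by
      push_cast
      ring
    rw [this, Complex.re_ofReal_mul]
    simp
    ring
  rw [isBoundedAtImInfty_iff]
  refine ⟨∑' n : ℕ, ‖a n * Complex.exp (2 * Real.pi * Complex.I * n *
    ((UpperHalfPlane.I : ℍ) : ℂ) / R)‖, 1, fun τ hτ => ?_⟩
  have h1 := (ha' UpperHalfPlane.I).summable.norm
  rw [← (ha' τ).tsum_eq]
  refine (norm_tsum_le_tsum_norm (ha' τ).summable.norm).trans ?_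
  refine Summable.tsum_le_tsum (fun n => ?_) (ha' τ).summable.norm h1
  rw [norm_mul, norm_mul, norm_eR, norm_eR]
  refine mul_le_mul_of_nonneg_left (Real.exp_le_exp.2 (neg_le_neg ?_)) (norm_nonneg _)
  rw [UpperHalfPlane.I_im]
  have : 0 ≤ 2 * Real.pi * n := by positivity
  exact div_le_div_of_nonneg_right (mul_le_mul_of_nonneg_left hτ this) (Nat.cast_nonneg R)

/-- powers: `F ∈ 2 O` implies `F ^ n ∈ 2 ^ n O` -/
theorem Ex_pow {O : Subring ℂ} {R : ℕ} {F : ℍ → ℂ} (hF : Ex (two O 1) R F) (n : ℕ) :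
    Ex (two O n) R (fun τ => F τ ^ n) := by
  induction n with
  | zero => exact Ex.congr (fun τ => pow_zero _) (Ex.const ⟨1, O.one_mem, by simp⟩)
  | succ n IH =>
    refine Ex.congr (fun τ => pow_succ _ _) (Ex.mul (fun a ha b hb => ?_) IH hF)
    exact_mod_cast two_mul_mem a ha b hb

/-- `F ∈ 1 + 2 O` implies `F ^ 2 ^ n ∈ 1 + 2 ^ (n + 1) O` -/
theorem Ex_one_pow {O : Subring ℂ} {R : ℕ} {F : ℍ → ℂ}
    (hF : Ex (two O 1) R (fun τ => F τ - 1)) (n : ℕ) :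
    Ex (two O (n + 1)) R (fun τ => F τ ^ 2 ^ n - 1) := by
  have h1 : Ex O.toAddSubgroup R (fun τ => (F τ - 1) / 2) := by
    refine Ex.congr (fun τ => ?_) (Ex.smul (c := 2⁻¹) (B := O.toAddSubgroup) ?_ hF)
    · rw [div_eq_inv_mul]
    · rintro _ ⟨y, hy, rfl⟩
      have : (2 : ℂ)⁻¹ * (2 ^ (1 : ℤ) * y) = y := by
        rw [zpow_one]
        field_simp
      rw [this]
      exact hy
  refine Ex.congr (fun τ => ?_) (Ex.smul (c := 2 ^ (n + 1)) (B := two O (n + 1)) ?_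
    (Ex.one_add_pow h1 n))
  · have : (2 : ℂ) ^ (n + 1) ≠ 0 := pow_ne_zero _ two_ne_zero
    field_simp
  · intro a ha
    exact ⟨a, ha, by norm_cast⟩

/-- slash of a product with a power -/
theorem slash_mul_pow (k h m : ℕ) (F H : ℍ → ℂ) (γ : SL(2, ℤ)) :
    (fun τ => F τ * H τ ^ m) ∣[((k + m * h : ℕ) : ℤ)] γ =
      fun τ => (F ∣[(k : ℤ)] γ) τ * (H ∣[(h : ℤ)] γ) τ ^ m := by
  funext τ
  simp only [ModularForm.SL_slash_apply]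
  have h0 : denom γ τ ≠ 0 := denom_ne_zero γ τ
  rw [mul_pow, ← zpow_natCast (denom γ τ ^ (-(h : ℤ))) m, ← _root_.zpow_mul]
  have : (-((k + m * h : ℕ) : ℤ)) = -(k : ℤ) + -(h : ℤ) * m := by
    push_cast
    ring
  rw [this, zpow_add₀ h0]
  ring

/-- `Γ₁(N) ∩ Γ₀(2^s)` -/
abbrev Gs (N s : ℕ) : Subgroup SL(2, ℤ) := Gamma1 N ⊓ Gamma0 (2 ^ s)

instance (N s : ℕ) [NeZero N] : (Gs N s).FiniteIndex := by
  have : NeZero (2 ^ s) := ⟨by positivity⟩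
  infer_instance

section

variable (O : Subring ℂ) {N : ℕ} (s k h R : ℕ) (F H : ℍ → ℂ)

/-- a modular form on `Γ₁(N) ∩ Γ₀(2^s)` from its expansions -/
def mkF [NeZero N] {A : AddSubgroup ℂ} (hFd : MDiff F)
    (hF : ∀ γ ∈ Gs N s, F ∣[(k : ℤ)] γ = F)
    (hFe : ∀ γ : SL(2, ℤ), Ex A R (F ∣[(k : ℤ)] γ)) :
    ModularForm ((Gs N s : Subgroup SL(2, ℤ)) : Subgroup (GL (Fin 2) ℝ)) (k : ℤ) where
  toFun := F
  slash_action_eq' := by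
    rintro _ ⟨γ, hγ, rfl⟩
    exact hF γ hγ
  holo' := hFd
  bdd_at_cusps' := fun {c} hc => by
    rw [Subgroup.IsArithmetic.isCusp_iff_isCusp_SL2Z] at hc
    rw [OnePoint.isBoundedAt_iff_forall_SL2Z hc]
    exact fun γ _ => Ex_bdd (hFe γ)

theorem slash_mk (k : ℤ) (f : ℍ → ℂ) (γ δ : SL(2, ℤ)) :
    (f ∣[k] γ) ∣[k] δ = f ∣[k] (γ * δ) := (SlashAction.slash_mul k γ δ f).symm

instance relInst [NeZero N] : (((Gs N s : Subgroup SL(2, ℤ)) :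
    Subgroup (GL (Fin 2) ℝ))).IsFiniteRelIndex (Gam N) := by
  have h1 : Gam N ≤ 𝒮ℒ := by
    rintro _ ⟨γ, -, rfl⟩
    exact ⟨γ, rfl⟩
  exact Subgroup.isFiniteRelIndex_of_le_right _ h1

/-- [TR] the trace of `F H ^ 2 ^ n` -/
theorem tr [NeZero N] (B n : ℕ) (hFd : MDiff F) (hHd : MDiff H)
    (hF : ∀ γ ∈ Gs N s, F ∣[(k : ℤ)] γ = F)
    (hFe : ∀ γ : SL(2, ℤ), Ex (two O (-B)) R (F ∣[(k : ℤ)] γ))
    (hH : ∀ γ ∈ Gamma0 (2 ^ s), H ∣[(h : ℤ)] γ = H)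
    (hH1 : Ex (two O 1) R (fun τ => H τ - 1))
    (hH2 : ∀ γ : SL(2, ℤ), γ ∉ Gamma0 (2 ^ s) → Ex (two O 1) R (H ∣[(h : ℤ)] γ)) :
    ∃ G : MF N (k + 2 ^ n * h), ∀ δ ∈ Gamma0 (2 ^ s),
      Ex (two O (n + 1 - B)) R
        (fun τ => ((G : ℍ → ℂ) ∣[((k + 2 ^ n * h : ℕ) : ℤ)] δ) τ - (F ∣[(k : ℤ)] δ) τ) := by
  classical
  set f : ℍ → ℂ := fun τ => F τ * H τ ^ 2 ^ n with hf
  have e1 : ∀ γ : SL(2, ℤ), f ∣[((k + 2 ^ n * h : ℕ) : ℤ)] γ =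
      fun τ => (F ∣[(k : ℤ)] γ) τ * (H ∣[(h : ℤ)] γ) τ ^ 2 ^ n := fun γ =>
    slash_mul_pow k h (2 ^ n) F H γ
  have hle : ((n : ℤ) + 1) ≤ ((2 ^ n : ℕ) : ℤ) := by
    exact_mod_cast Nat.lt_two_pow_self
  -- expansions outside `Γ₀(2^s)`
  have e2 : ∀ γ : SL(2, ℤ), γ ∉ Gamma0 (2 ^ s) →
      Ex (two O (n + 1 - B)) R (f ∣[((k + 2 ^ n * h : ℕ) : ℤ)] γ) := by
    intro γ hγ
    rw [e1]
    refine Ex.mono (two_anti O ?_) (Ex.mul (two_mul_mem (m := -B) (n := (2 ^ n : ℕ)))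
      (hFe γ) (Ex_pow (hH2 γ hγ) (2 ^ n)))
    linarith
  -- expansions in `Γ₀(2^s)`
  have e3 : ∀ γ ∈ Gamma0 (2 ^ s), Ex (two O (n + 1 - B)) R
      (fun τ => (f ∣[((k + 2 ^ n * h : ℕ) : ℤ)] γ) τ - (F ∣[(k : ℤ)] γ) τ) := by
    intro γ hγ
    rw [e1, hH γ hγ]
    refine Ex.congr (fun τ => ?_) (Ex.mono (two_anti O ?_)
      (Ex.mul (two_mul_mem (m := -B) (n := (n + 1))) (hFe γ) (Ex_one_pow hH1 n)))
    · ring
    · linarith
  have e4 : ∀ γ : SL(2, ℤ), Ex (two O (-B)) R (f ∣[((k + 2 ^ n * h : ℕ) : ℤ)] γ) := by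
    intro γ
    by_cases hγ : γ ∈ Gamma0 (2 ^ s)
    · refine Ex.congr (fun τ => ?_) (Ex.add (Ex.mono (two_anti O ?_) (e3 γ hγ)) (hFe γ))
      · ring
      · linarith
    · refine Ex.mono (two_anti O ?_) (e2 γ hγ)
      linarith
  have e5 : ∀ γ ∈ Gs N s, f ∣[((k + 2 ^ n * h : ℕ) : ℤ)] γ = f := by
    intro γ hγ
    rw [e1, hF γ hγ, hH γ hγ.2]
  have e6 : MDiff f := by
    have h1 : MDiff (fun τ => H τ ^ 2 ^ n) := hHd.pow _
    exact hFd.mul h1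
  let f' := mkF s (k + 2 ^ n * h) R f e6 e5 e4
  refine ⟨ModularForm.trace (Gam N) f', fun δ hδ => ?_⟩
  let : Fintype (Gam N ⧸ (((Gs N s : Subgroup SL(2, ℤ)) :
    Subgroup (GL (Fin 2) ℝ)).subgroupOf (Gam N))) := Fintype.ofFinite _
  set q₀ : Gam N ⧸ (((Gs N s : Subgroup SL(2, ℤ)) :
    Subgroup (GL (Fin 2) ℝ)).subgroupOf (Gam N)) := QuotientGroup.mk 1 with hq₀
  have e7 : (ModularForm.trace (Gam N) f' : ℍ → ℂ) =
      ∑ q, SlashInvariantForm.quotientFunc f' q := ModularForm.coe_trace _ _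
  have e8 : SlashInvariantForm.quotientFunc f' q₀ = f := by
    have h1 : SlashInvariantForm.quotientFunc f' q₀ = f ∣[((k + 2 ^ n * h : ℕ) : ℤ)]
      ((1 : Gam N).1⁻¹) := SlashInvariantForm.quotientFunc_mk f' (1 : Gam N)
    rw [h1, OneMemClass.coe_one, inv_one, SlashAction.slash_one]
  have e9 : ∀ q, q ≠ q₀ → ∃ γ : SL(2, ℤ), γ ∉ Gamma0 (2 ^ s) ∧
      SlashInvariantForm.quotientFunc f' q = f ∣[((k + 2 ^ n * h : ℕ) : ℤ)] γ := by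
    intro q hq
    induction q using Quotient.inductionOn with
    | h r =>
      obtain ⟨γ, h1, h2⟩ := r.2
      refine ⟨γ⁻¹, fun h3 => hq ?_, ?_⟩
      · rw [inv_mem_iff] at h3
        rw [hq₀, eq_comm]
        refine QuotientGroup.eq.2 ?_
        rw [inv_one, one_mul, Subgroup.mem_subgroupOf]
        exact ⟨γ, ⟨h1, h3⟩, h2⟩
      · have h4 : SlashInvariantForm.quotientFunc f' ⟦r⟧ = f ∣[((k + 2 ^ n * h : ℕ) : ℤ)]
          (r.1⁻¹) := SlashInvariantForm.quotientFunc_mk f' r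
        rw [h4, ← h2, ← map_inv]
        rfl
  have e10 : ∀ q ∈ Finset.univ.erase q₀, Ex (two O (n + 1 - B)) R
      (SlashInvariantForm.quotientFunc f' q ∣[((k + 2 ^ n * h : ℕ) : ℤ)] δ) := by
    intro q hq
    obtain ⟨γ, h1, h2⟩ := e9 q (Finset.ne_of_mem_erase hq)
    rw [h2, slash_mk]
    refine e2 _ fun h3 => h1 ?_
    exact (Subgroup.mul_mem_cancel_right _ hδ).1 h3
  refine Ex.congr (fun τ => ?_) (Ex.add (e3 δ hδ) (Ex.sum _ e10))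
  rw [e7, SlashAction.sum_slash, ← Finset.add_sum_erase _ _ (Finset.mem_univ q₀), e8,
    Pi.add_apply, Finset.sum_apply]
  ring

end

/-- the diamond operator is the slash action of any `δ ∈ Γ₀(N)` with lower right entry `ℓ` -/
theorem dFun_eq {N k : ℕ} (G : MF N k) (ℓ : PA N) (δ : SL(2, ℤ)) (h0 : δ ∈ Gamma0 N)
    (h1 : ((δ 1 1 : ℤ) : ZMod N) = ((ℓ.1 : ℤ) : ZMod N)) :
    dFun N k ℓ G = (G : ℍ → ℂ) ∣[(k : ℤ)] δ := by
  have h2 : gd N ℓ.1 ℓ.coprime * δ⁻¹ ∈ Gamma1 N := by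
    rw [Gamma0_mem] at h0
    have hdet : ((δ 0 0 : ℤ) : ZMod N) * ((δ 1 1 : ℤ) : ZMod N) = 1 := by
      have h3 := δ.2
      rw [Matrix.det_fin_two] at h3
      have h4 := congrArg (fun x : ℤ => (x : ZMod N)) h3
      push_cast at h4
      rw [h0] at h4
      linear_combination h4
    have hgcd : ((Nat.gcdA ℓ.1 N : ℤ) : ZMod N) * ((ℓ.1 : ℤ) : ZMod N) = 1 := by
      have h3 := Nat.gcd_eq_gcd_ab ℓ.1 N
      rw [show Nat.gcd ℓ.1 N = 1 from ℓ.coprime] at h3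
      have h4 := congrArg (fun x : ℤ => (x : ZMod N)) h3
      push_cast at h4
      rw [ZMod.natCast_self] at h4
      push_cast
      linear_combination -h4
    rw [Gamma1_mem]
    have e : ((gd N ℓ.1 ℓ.coprime * δ⁻¹ : SL(2, ℤ)) : Matrix (Fin 2) (Fin 2) ℤ) =
        !![Nat.gcdA ℓ.1 N * δ 1 1 + Nat.gcdB ℓ.1 N * δ 1 0,
          -(Nat.gcdA ℓ.1 N * δ 0 1) - Nat.gcdB ℓ.1 N * δ 0 0;
          N * δ 1 1 - ℓ.1 * δ 1 0, -(N * δ 0 1) + ℓ.1 * δ 0 0] := by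
      rw [Matrix.SpecialLinearGroup.coe_mul, Matrix.SpecialLinearGroup.coe_inv,
        Matrix.adjugate_fin_two]
      ext i j
      fin_cases i <;> fin_cases j <;> simp [gd, Matrix.mul_apply, Fin.sum_univ_two] <;> ring
    rw [e]
    refine ⟨?_, ?_, ?_⟩
    · simp only [Matrix.of_apply, Matrix.cons_val', Matrix.cons_val_zero, Matrix.cons_val_fin_one]
      push_cast
      rw [h0, h1]
      linear_combination hgcd
    · simp only [Matrix.of_apply, Matrix.cons_val', Matrix.cons_val_one, Matrix.cons_val_fin_one]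
      push_cast
      rw [ZMod.natCast_self]
      rw [h1] at hdet
      push_cast at hdet
      linear_combination hdet
    · simp only [Matrix.of_apply, Matrix.cons_val', Matrix.cons_val_one, Matrix.cons_val_zero,
        Matrix.cons_val_fin_one]
      push_cast
      rw [ZMod.natCast_self, h0]
      ring
  have h3 : (G : ℍ → ℂ) ∣[(k : ℤ)] (gd N ℓ.1 ℓ.coprime * δ⁻¹) = G :=
    SlashInvariantFormClass.slash_action_eq G _ ⟨_, h2, rfl⟩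
  calc dFun N k ℓ G = (G : ℍ → ℂ) ∣[(k : ℤ)] (gd N ℓ.1 ℓ.coprime * δ⁻¹ * δ) := by
        rw [inv_mul_cancel_right]
        rfl
    _ = (G : ℍ → ℂ) ∣[(k : ℤ)] δ := by
        rw [← slash_mk, h3]

theorem PA_cop {N : ℕ} (ℓ : PA N) (s : ℕ) : Nat.Coprime ℓ.1 (N * 2 ^ s) := by
  refine Nat.Coprime.mul_right ℓ.coprime (Nat.Coprime.pow_right s ?_)
  exact (Nat.Prime.coprime_iff_not_dvd ℓ.2.1).2 fun h => ℓ.2.2 (h.mul_right N)

theorem gd_mem (N s ℓ : ℕ) (h : Nat.Coprime ℓ (N * 2 ^ s)) :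
    gd (N * 2 ^ s) ℓ h ∈ Gamma0 N ∧ gd (N * 2 ^ s) ℓ h ∈ Gamma0 (2 ^ s) := by
  have e : (gd (N * 2 ^ s) ℓ h) 1 0 = ((N * 2 ^ s : ℕ) : ℤ) := rfl
  rw [Gamma0_mem, Gamma0_mem, e]
  constructor
  · push_cast
    rw [ZMod.natCast_self, zero_mul]
  · have : ((2 ^ s : ℕ) : ZMod (2 ^ s)) = 0 := ZMod.natCast_self _
    push_cast at this ⊢
    rw [this, mul_zero]

/-- `⟨ℓ⟩ G = G ∣ [*, *; 2^s N, ℓ]` -/
theorem dFun_gd {N k : ℕ} (G : MF N k) (s : ℕ) (ℓ : PA N) :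
    dFun N k ℓ G = (G : ℍ → ℂ) ∣[(k : ℤ)] gd (N * 2 ^ s) ℓ.1 (PA_cop ℓ s) :=
  dFun_eq G ℓ _ (gd_mem N s ℓ.1 (PA_cop ℓ s)).1 rfl

/-- [TR] with the diamond operators -/
theorem tr_dia (O : Subring ℂ) {N : ℕ} [NeZero N] (s k h R : ℕ) (F H : ℍ → ℂ) (B n : ℕ)
    (hFd : MDiff F) (hHd : MDiff H)
    (hF : ∀ γ ∈ Gs N s, F ∣[(k : ℤ)] γ = F)
    (hFe : ∀ γ : SL(2, ℤ), Ex (two O (-B)) R (F ∣[(k : ℤ)] γ))
    (hH : ∀ γ ∈ Gamma0 (2 ^ s), H ∣[(h : ℤ)] γ = H)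
    (hH1 : Ex (two O 1) R (fun τ => H τ - 1))
    (hH2 : ∀ γ : SL(2, ℤ), γ ∉ Gamma0 (2 ^ s) → Ex (two O 1) R (H ∣[(h : ℤ)] γ)) :
    ∃ G : MF N (k + 2 ^ n * h),
      Ex (two O (n + 1 - B)) R (fun τ => G τ - F τ) ∧
      (∀ ℓ : PA N, Ex (two O (n + 1 - B)) R (fun τ => dFun N (k + 2 ^ n * h) ℓ G τ -
        (F ∣[(k : ℤ)] gd (N * 2 ^ s) ℓ.1 (PA_cop ℓ s)) τ)) ∧
      ∀ δ ∈ Gamma0 (2 ^ s), Ex (two O (n + 1 - B)) R
        (fun τ => ((G : ℍ → ℂ) ∣[((k + 2 ^ n * h : ℕ) : ℤ)] δ) τ - (F ∣[(k : ℤ)] δ) τ) := by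
  obtain ⟨G, hG⟩ := tr O s k h R F H B n hFd hHd hF hFe hH hH1 hH2
  refine ⟨G, ?_, fun ℓ => ?_, hG⟩
  · have := hG 1 (one_mem _)
    simpa only [SlashAction.slash_one] using this
  · rw [dFun_gd G s ℓ]
    exact hG _ (gd_mem N s ℓ.1 (PA_cop ℓ s)).2

end Vale.Agent.P022.H645
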