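import Vale.Agent.P022.H933.Ext
import Vale.Agent.P022.H645.Tr
import Vale.Agent.P022.H875.Cos

/-!
# P022-X, row [TR] in the letters of `H933.Ext`
-/

open scoped ModularForm MatrixGroups Manifold
open UpperHalfPlane Matrix CongruenceSubgroup
open Vale.Agent.P022.H220 Vale.Agent.P022.H875

noncomputable section

namespace Vale.Agent.P022.H645

theorem mem_G0_iff {M : ℕ} {γ : SL(2, ℤ)} : γ ∈ Gamma0 M ↔ (M : ℤ) ∣ γ 1 0 := by
  rw [Gamma0_mem, ZMod.intCast_zmod_eq_zero_iff_dvd]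

theorem mem_G0_two {s : ℕ} {γ : SL(2, ℤ)} : γ ∈ Gamma0 (2 ^ s) ↔ (2 ^ s : ℤ) ∣ γ 1 0 := by
  rw [mem_G0_iff]
  push_cast
  rfl

/-- [TR] -/
theorem trX : X.TRStmt := by
  intro N s hN
  have : NeZero N := ⟨by rintro rfl; simp at hN⟩
  have : NeZero (2 ^ s) := ⟨by positivity⟩
  have hcop : N.Coprime (2 ^ s) := (Nat.Coprime.pow_right s (Nat.coprime_two_right.2 hN))
  obtain ⟨ι, _, _, i0, r, hr0, hr1, hr2, hr3, hr4, hr5⟩ := cos (N := N) (M := 2 ^ s) hcop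
  have hinj : Function.Injective r := by
    intro i j hij
    refine hr3 i j ?_
    rw [hij, mul_inv_cancel]
    exact one_mem _
  have key : ∀ (k : ℕ) (F : ℍ → ℂ),
      (∀ γ : SL(2, ℤ), γ ∈ Gamma1 N → (2 ^ s : ℤ) ∣ γ 1 0 → F ∣[(k : ℤ)] γ = F) →
      ∀ δ : SL(2, ℤ), δ ∈ Gamma0 N → δ ∈ Gamma0 (2 ^ s) ∨ δ ∈ Gamma1 N →
      ∀ δ' : SL(2, ℤ), δ' ∈ Gamma0 (2 ^ s) → δ' ∈ Gamma0 N →
        ((δ' 1 1 : ℤ) : ZMod N) = ((δ 1 1 : ℤ) : ZMod N) →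
      (∑ i, F ∣[(k : ℤ)] r i) ∣[(k : ℤ)] δ = ∑ i, (F ∣[(k : ℤ)] δ') ∣[(k : ℤ)] r i := by
    intro k F hF δ hδ _ δ' hδ' hδ'' hδδ
    obtain ⟨σ, hσ⟩ := hr5 δ
    rw [SlashAction.sum_slash, ← Equiv.sum_comp σ fun i => (F ∣[(k : ℤ)] δ') ∣[(k : ℤ)] r i]
    refine Finset.sum_congr rfl fun i _ => ?_
    set e := r i * δ * (r (σ i))⁻¹ with he
    have h1 : r i * δ = e * r (σ i) := by rw [he, inv_mul_cancel_right]
    obtain ⟨h2, h3⟩ := conj_Gamma0 (Gamma_le_Gamma1 N (hr1 i)) (Gamma_le_Gamma1 N (hr1 (σ i))) hδ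
    rw [← he] at h2 h3
    rw [slash_mk, h1, ← slash_mk]
    congr 1
    -- `F ∣ e = F ∣ δ'`
    have h4 : e * δ'⁻¹ ∈ Gamma1 N := by
      rw [Gamma1_mem]
      have hd' : δ'⁻¹ ∈ Gamma0 N := inv_mem hδ''
      have h5 : e * δ'⁻¹ ∈ Gamma0 N := mul_mem h2 hd'
      have h6 : (((e * δ'⁻¹) 1 1 : ℤ) : ZMod N) = 1 := by
        rw [lower_mul h2, h3, ← hδδ, ← lower_mul hδ'', mul_inv_cancel]
        simp
      have h7 := (e * δ'⁻¹).2
      rw [Matrix.det_fin_two] at h7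
      have h8 := congrArg (fun x : ℤ => (x : ZMod N)) h7
      push_cast at h8
      rw [Gamma0_mem.1 h5, h6] at h8
      refine ⟨?_, h6, Gamma0_mem.1 h5⟩
      linear_combination h8
    have h5 : e * δ'⁻¹ ∈ Gamma0 (2 ^ s) := mul_mem (hσ i) (inv_mem hδ')
    calc F ∣[(k : ℤ)] e = F ∣[(k : ℤ)] (e * δ'⁻¹ * δ') := by rw [inv_mul_cancel_right]
      _ = F ∣[(k : ℤ)] δ' := by rw [← slash_mk, hF _ h4 (mem_G0_two.1 h5)]
  refine ⟨Finset.univ.image r, ?_, ?_, ?_, ?_⟩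
  · rw [Finset.mem_image]
    exact ⟨i0, Finset.mem_univ _, hr0⟩
  · intro γ hγ
    obtain ⟨i, -, rfl⟩ := Finset.mem_image.1 hγ
    exact Gamma_le_Gamma1 N (hr1 i)
  · intro γ hγ h1 h2
    obtain ⟨i, -, rfl⟩ := Finset.mem_image.1 hγ
    rw [hr2 i (mem_G0_two.2 h2), hr0] at h1
    exact h1 rfl
  · intro k F hFd hF hFb
    have hsum : ∀ f : SL(2, ℤ) → ℍ → ℂ, ∑ γ ∈ Finset.univ.image r, f γ = ∑ i, f (r i) :=
      fun f => Finset.sum_image fun i _ j _ h => hinj h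
    refine ⟨{ toFun := ∑ γ ∈ Finset.univ.image r, F ∣[(k : ℤ)] γ
              slash_action_eq' := ?_
              holo' := ?_
              bdd_at_cusps' := ?_ }, rfl, ?_⟩
    · rintro _ ⟨δ, hδ, rfl⟩
      rw [hsum]
      have h1 := key k F hF δ (Gamma1_in_Gamma0 N hδ) (Or.inr hδ) 1 (one_mem _) (one_mem _) (by
        rw [((Gamma1_mem N δ).1 hδ).2.1]
        simp)
      simp only [SlashAction.slash_one] at h1
      exact h1
    · refine MDifferentiable.sum fun i _ => ?_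
      exact hFd.slash k _
    · intro c hc
      rw [Subgroup.IsArithmetic.isCusp_iff_isCusp_SL2Z] at hc
      rw [OnePoint.isBoundedAt_iff_forall_SL2Z hc]
      intro γ _
      rw [IsBoundedAtImInfty, Filter.BoundedAtFilter, SlashAction.sum_slash]
      refine Asymptotics.IsBigO.sum fun δ _ => ?_
      rw [slash_mk]
      exact hFb (δ * γ)
    · intro ℓ δ h1 h2
      have h3 : δ ∈ Gamma0 N := mem_G0_iff.2 (dvd_trans ⟨2 ^ s, by push_cast; ring⟩ h1)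
      have h4 : δ ∈ Gamma0 (2 ^ s) := mem_G0_iff.2 (dvd_trans ⟨N, by push_cast; ring⟩ h1)
      have h5 : ((δ 1 1 : ℤ) : ZMod N) = ((ℓ.1 : ℤ) : ZMod N) := by
        have := (ZMod.intCast_zmod_eq_zero_iff_dvd _ N).2 h2
        push_cast at this ⊢
        exact sub_eq_zero.1 this
      rw [dFun_eq _ ℓ δ h3 h5]
      change (∑ γ ∈ Finset.univ.image r, F ∣[(k : ℤ)] γ) ∣[(k : ℤ)] δ = _
      rw [hsum, hsum]
      exact key k F hF δ h3 (Or.inl h4) δ h4 h3 rfl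

end Vale.Agent.P022.H645
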